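import Vale.Agent.P140.MathlibUsed

/-!
The notions of P140 for a Euclidean space `E` of velocities, a space `X` of positions and the
projection `π : E → X`. They are used for `E = ℝ³`, `X = ℝ³ / ℤ³` and the canonical `π`.
-/

open MeasureTheory Set
open scoped ENNReal

noncomputable section

namespace Vale.Agent.P140.Stt

variable {E X : Type} [NormedAddCommGroup E] [InnerProductSpace ℝ E] [MeasureSpace E]
  [MeasureSpace X]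

/-- `∫ k(w, ω) dω dw`, with surface measure on the unit sphere -/
def sphInt (k : E → E → ℝ≥0∞) : ℝ≥0∞ :=
  ∫⁻ w : E, ∫⁻ ω : Metric.sphere (0 : E) 1, k w ω ∂(volume : Measure E).toSphere

/-- `∫ |a| k(w, v', w') dω dw`, with `a = (v - w) ⬝ ω`, `v' = v - a ω`, `w' = w + a ω` -/
def coll (k : E → E → E → ℝ≥0∞) (v : E) : ℝ≥0∞ :=
  sphInt fun w ω => ENNReal.ofReal |inner ℝ (v - w) ω| *
    k w (v - (inner ℝ (v - w) ω : ℝ) • ω) (w + (inner ℝ (v - w) ω : ℝ) • ω)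

/-- gain term `Q⁺(f,f)` at `(x, v)` -/
def gain (f : X × E → ℝ) (p : X × E) : ℝ≥0∞ :=
  coll (fun _ v' w' => ENNReal.ofReal (f (p.1, v') * f (p.1, w'))) p.2

/-- loss term `Q⁻(f,f)` at `(x, v)` -/
def loss (f : X × E → ℝ) (p : X × E) : ℝ≥0∞ :=
  coll (fun w _ _ => ENNReal.ofReal (f p * f (p.1, w))) p.2

/-- the Maxwellian `M(v) = (2π)^(-3/2) exp(-|v|²/2)` -/
def Maxw (v : E) : ℝ := Real.exp (-(‖v‖ ^ 2 / 2)) / √(2 * Real.pi) ^ 3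

/-- relative entropy; the integrand `f log (f/M) - f + M` is nonnegative -/
def relEntropy (f : X × E → ℝ) : ℝ≥0∞ :=
  ∫⁻ p, ENNReal.ofReal (f p * Real.log (f p / Maxw p.2) - f p + Maxw p.2)

/-- `(p - q) log (p / q)`, `0` at `p = q = 0`, `∞` when exactly one of `p, q` vanishes -/
def dissDensity (p q : ℝ) : ℝ≥0∞ :=
  if 0 < p ∧ 0 < q then ENNReal.ofReal ((p - q) * Real.log (p / q)) else if p = q then 0 else ⊤

variable [AddCommGroup X]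

/-- renormalized entropy solution with datum `F0` -/
structure IsSol (π : E → X) (F0 : X × E → ℝ) (F : ℝ → X × E → ℝ) : Prop where
  datum_measurable : Measurable F0
  datum_nonneg : ∀ p, 0 ≤ F0 p
  datum_finite : ∫⁻ p, ENNReal.ofReal (F0 p * (1 + ‖p.2‖ ^ 2 + |Real.log (F0 p)|)) < ⊤
  measurable : Measurable fun q : ℝ × X × E => F q.1 q.2
  nonneg : ∀ t p, 0 ≤ F t p
  integrable : ∀ t, 0 ≤ t → Integrable (F t)
  weak_cont : ∀ θ : X × E → ℝ, Measurable θ → (∃ C, ∀ p, |θ p| ≤ C) →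
    ContinuousOn (fun t => ∫ p, F t p * θ p) (Ici 0)
  initial : F 0 =ᵐ[volume] F0
  bounded : ∀ T : ℝ, ∃ C : ℝ, ∀ t ∈ Icc 0 T,
    ∫⁻ p, ENNReal.ofReal (F t p * (1 + ‖p.2‖ ^ 2 + |Real.log (F t p)|)) ≤ ENNReal.ofReal C
  collision : ∀ T : ℝ, ∫⁻ t in Icc 0 T, ∫⁻ p,
    (gain (F t) p + loss (F t) p) / ENNReal.ofReal (1 + F t p / Maxw p.2) < ⊤
  renorm : ∀ β : ℝ → ℝ, ContDiffOn ℝ 1 β (Ici 0) → β 0 = 0 →
    (∃ C, ∀ z, 0 ≤ z → |derivWithin β (Ici 0) z| ≤ C / (1 + z)) → ∀ φ : ℝ → X × E → ℝ,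
    (ContDiff ℝ (⊤ : ℕ∞) fun q : ℝ × E × E => φ q.1 (π q.2.1, q.2.2)) →
    (∃ R : ℝ, ∀ t p, R < |t| ∨ R < ‖p.2‖ → φ t p = 0) →
    (∫ q in Ioi 0 ×ˢ (univ : Set (X × E)),
      (Maxw q.2.2 * β (F q.1 q.2 / Maxw q.2.2)
          * deriv (fun s : ℝ => φ (q.1 + s) (q.2.1 + π (s • q.2.2), q.2.2)) 0
        + derivWithin β (Ici 0) (F q.1 q.2 / Maxw q.2.2)
          * ((gain (F q.1) q.2).toReal - (loss (F q.1) q.2).toReal) * φ q.1 q.2))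
      + ∫ p, Maxw p.2 * β (F0 p / Maxw p.2) * φ 0 p = 0
  mass : ∀ φ : ℝ → X → ℝ, (ContDiff ℝ (⊤ : ℕ∞) fun q : ℝ × E => φ q.1 (π q.2)) →
    (∃ R : ℝ, ∀ t x, R < |t| → φ t x = 0) →
    (∫ q in Ioi 0 ×ˢ (univ : Set (X × E)),
      F q.1 q.2 * deriv (fun s : ℝ => φ (q.1 + s) (q.2.1 + π (s • q.2.2))) 0)
      + ∫ p, F0 p * φ 0 p.1 = 0
  momentum : ∀ t, 0 ≤ t → ∫ p, F t p • p.2 = ∫ p, F 0 p • p.2
  energy : ∀ t, 0 ≤ t →
    ∫⁻ p, ENNReal.ofReal (‖p.2‖ ^ 2 * F t p) ≤ ∫⁻ p, ENNReal.ofReal (‖p.2‖ ^ 2 * F0 p)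
  entropy : ∀ t, 0 ≤ t → relEntropy (F t) + ∫⁻ s in Ioc 0 t, (1 / 4) * ∫⁻ x : X, ∫⁻ v : E,
    coll (fun w v' w' => dissDensity (F s (x, v') * F s (x, w')) (F s (x, v) * F s (x, w))) v
      ≤ relEntropy F0

end Vale.Agent.P140.Stt
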