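import Mathlib.Algebra.Algebra.Field
import Mathlib.Algebra.AlgebraicCard
import Mathlib.Algebra.BigOperators.ModEq
import Mathlib.Algebra.BigOperators.Ring.Nat
import Mathlib.Algebra.BigOperators.Sym
import Mathlib.Algebra.CharP.LinearMaps
import Mathlib.Algebra.CharP.MixedCharZero
import Mathlib.Algebra.CubicDiscriminant
import Mathlib.Algebra.DualQuaternion
import Mathlib.Algebra.Exact
import Mathlib.Algebra.Expr
import Mathlib.Algebra.Field.MinimalAxioms
import Mathlib.Algebra.Field.ModEq
import Mathlib.Algebra.Field.Power
import Mathlib.Algebra.Field.Shrink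
import Mathlib.Algebra.Field.ULift
import Mathlib.Algebra.FreeNonUnitalNonAssocAlgebra
import Mathlib.Algebra.Group.Action.Equidecomp
import Mathlib.Algebra.Group.Action.Option
import Mathlib.Algebra.Group.Action.Sigma
import Mathlib.Algebra.Group.Action.Sum
import Mathlib.Algebra.Group.ForwardDiff
import Mathlib.Algebra.Group.Nat.TypeTags
import Mathlib.Algebra.Group.Pointwise.Set.Small
import Mathlib.Algebra.Group.Subgroup.Finsupp
import Mathlib.Algebra.Group.Submonoid.Finsupp
import Mathlib.Algebra.Group.Submonoid.Saturation
import Mathlib.Algebra.Group.Translate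
import Mathlib.Algebra.GroupWithZero.Action.ConjAct
import Mathlib.Algebra.GroupWithZero.Action.Faithful
import Mathlib.Algebra.GroupWithZero.Conj
import Mathlib.Algebra.GroupWithZero.Int
import Mathlib.Algebra.GroupWithZero.Shrink
import Mathlib.Algebra.HierarchyDesign
import Mathlib.Algebra.ModEq
import Mathlib.Algebra.Module.Bimodule
import Mathlib.Algebra.Module.GradedModule
import Mathlib.Algebra.Module.Lattice
import Mathlib.Algebra.Module.LinearMap.FiniteRange
import Mathlib.Algebra.Module.LinearMap.Index
import Mathlib.Algebra.Module.LinearMap.Polynomial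
import Mathlib.Algebra.Module.PID
import Mathlib.Algebra.Module.PointwisePi
import Mathlib.Algebra.Module.SpanRankOperations
import Mathlib.Algebra.Module.Submodule.Union
import Mathlib.Algebra.Module.Torsion.PrimaryComponent
import Mathlib.Algebra.Order.Archimedean.IndicatorCard
import Mathlib.Algebra.Order.Archimedean.Submonoid
import Mathlib.Algebra.Order.Chebyshev
import Mathlib.Algebra.Order.Field.Subfield
import Mathlib.Algebra.Order.Floor.Div
import Mathlib.Algebra.Order.Floor.Semifield
import Mathlib.Algebra.Order.Group.Bounds
import Mathlib.Algebra.Order.Group.CompleteLattice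
import Mathlib.Algebra.Order.Group.Ideal
import Mathlib.Algebra.Order.Group.PartialSups
import Mathlib.Algebra.Order.GroupWithZero.Lex
import Mathlib.Algebra.Order.Module.HahnEmbedding
import Mathlib.Algebra.Order.Monoid.Associated
import Mathlib.Algebra.Order.Monoid.PNat
import Mathlib.Algebra.Order.Monoid.ToMulBot
import Mathlib.Algebra.Order.Monoid.Unbundled.Units
import Mathlib.Algebra.Order.PUnit
import Mathlib.Algebra.Order.Quantale
import Mathlib.Algebra.Order.Ring.Cone
import Mathlib.Algebra.Order.Ring.Finset
import Mathlib.Algebra.Order.Ring.Opposite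
import Mathlib.Algebra.Order.Ring.Units
import Mathlib.Algebra.Order.Star.Conjneg
import Mathlib.Algebra.Order.Star.Pi
import Mathlib.Algebra.Order.Sub.Prod
import Mathlib.Algebra.Order.Sub.Unbundled.Hom
import Mathlib.Algebra.Order.Sum
import Mathlib.Algebra.PEmptyInstances
import Mathlib.Algebra.Polynomial.Bivariate
import Mathlib.Algebra.Polynomial.CoeffMem
import Mathlib.Algebra.Polynomial.Degree.CardPowDegree
import Mathlib.Algebra.Polynomial.Degree.Definitions
import Mathlib.Algebra.Polynomial.Degree.IsMonicOfDegree
import Mathlib.Algebra.Polynomial.DenomsClearable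
import Mathlib.Algebra.Polynomial.Eval.Irreducible
import Mathlib.Algebra.Polynomial.Homogenize
import Mathlib.Algebra.Polynomial.OfFn
import Mathlib.Algebra.Polynomial.PartialFractions
import Mathlib.Algebra.Polynomial.RuleOfSigns
import Mathlib.Algebra.Polynomial.SpecificDegree
import Mathlib.Algebra.Polynomial.SumIteratedDerivative
import Mathlib.Algebra.Polynomial.UnitTrinomial
import Mathlib.Algebra.Quandle
import Mathlib.Algebra.QuaternionBasis
import Mathlib.Algebra.Ring.Action.Pointwise.Finset
import Mathlib.Algebra.Ring.BooleanRing
import Mathlib.Algebra.Ring.Ext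
import Mathlib.Algebra.Ring.Identities
import Mathlib.Algebra.Ring.IsFormallyReal
import Mathlib.Algebra.Ring.Subgroup
import Mathlib.Algebra.Ring.WithZero
import Mathlib.Algebra.Star.CHSH
import Mathlib.Algebra.Star.CentroidHom
import Mathlib.Algebra.Star.Free
import Mathlib.Algebra.Star.RingQuot
import Mathlib.Algebra.Symmetrized
import Mathlib.Algebra.TrivSqZeroExt
import Mathlib.Analysis.Asymptotics.Completion
import Mathlib.Analysis.Asymptotics.ExpGrowth
import Mathlib.Analysis.CStarAlgebra.ApproximateUnit
import Mathlib.Analysis.CStarAlgebra.CompletelyPositiveMap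
import Mathlib.Analysis.CStarAlgebra.Extreme
import Mathlib.Analysis.CStarAlgebra.GelfandNaimarkSegal
import Mathlib.Analysis.CStarAlgebra.Hom
import Mathlib.Analysis.CStarAlgebra.Multiplier
import Mathlib.Analysis.CStarAlgebra.Projection
import Mathlib.Analysis.CStarAlgebra.lpSpace
import Mathlib.Analysis.Calculus.AbsolutelyMonotone
import Mathlib.Analysis.Calculus.ContDiff.FiniteDimension
import Mathlib.Analysis.Calculus.ContDiff.Polynomial
import Mathlib.Analysis.Calculus.Darboux
import Mathlib.Analysis.Calculus.Deriv.Pi
import Mathlib.Analysis.Calculus.Deriv.Star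
import Mathlib.Analysis.Calculus.DerivativeTest
import Mathlib.Analysis.Calculus.FDeriv.ContinuousAlternatingMap
import Mathlib.Analysis.Calculus.FDeriv.Norm
import Mathlib.Analysis.Calculus.FDeriv.Partial
import Mathlib.Analysis.Calculus.ImplicitContDiff
import Mathlib.Analysis.Calculus.InverseFunctionTheorem.FiniteDimensional
import Mathlib.Analysis.Calculus.LHopital
import Mathlib.Analysis.Calculus.LogDerivUniformlyOn
import Mathlib.Analysis.Calculus.Rademacher
import Mathlib.Analysis.Calculus.TangentCone.Pi
import Mathlib.Analysis.Calculus.TangentCone.ProperSpace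
import Mathlib.Analysis.Calculus.TangentCone.Seq
import Mathlib.Analysis.Calculus.TaylorIntegral
import Mathlib.Analysis.Calculus.VectorField
import Mathlib.Analysis.Complex.Angle
import Mathlib.Analysis.Complex.BorelCaratheodory
import Mathlib.Analysis.Complex.CanonicalDecomposition
import Mathlib.Analysis.Complex.Hadamard
import Mathlib.Analysis.Complex.HalfPlane
import Mathlib.Analysis.Complex.IsIntegral
import Mathlib.Analysis.Complex.JensenFormula
import Mathlib.Analysis.Complex.OpenMapping
import Mathlib.Analysis.Complex.OperatorNorm
import Mathlib.Analysis.Complex.Positivity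
import Mathlib.Analysis.Complex.RiemannMapping
import Mathlib.Analysis.Complex.SqrtDeriv
import Mathlib.Analysis.Complex.SummableUniformlyOn
import Mathlib.Analysis.Complex.Tietze
import Mathlib.Analysis.Convex.AmpleSet
import Mathlib.Analysis.Convex.BetweenList
import Mathlib.Analysis.Convex.Birkhoff
import Mathlib.Analysis.Convex.Caratheodory
import Mathlib.Analysis.Convex.Extrema
import Mathlib.Analysis.Convex.FunctionTopology
import Mathlib.Analysis.Convex.GaugeRescale
import Mathlib.Analysis.Convex.Independent
import Mathlib.Analysis.Convex.Integral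
import Mathlib.Analysis.Convex.KreinMilman
import Mathlib.Analysis.Convex.LinearIsometry
import Mathlib.Analysis.Convex.MetricSpace
import Mathlib.Analysis.Convex.Radon
import Mathlib.Analysis.Convex.Side
import Mathlib.Analysis.Convex.StoneSeparation
import Mathlib.Analysis.Convex.StrictCombination
import Mathlib.Analysis.Convex.StrictConvexBetween
import Mathlib.Analysis.Convex.Strong
import Mathlib.Analysis.Convex.Visible
import Mathlib.Analysis.Fourier.AddCircleMulti
import Mathlib.Analysis.Fourier.Convolution
import Mathlib.Analysis.Fourier.LpSpace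
import Mathlib.Analysis.Fourier.RiemannLebesgueLemma
import Mathlib.Analysis.Fourier.ZMod
import Mathlib.Analysis.InnerProductSpace.Affine
import Mathlib.Analysis.InnerProductSpace.Coalgebra
import Mathlib.Analysis.InnerProductSpace.ConformalLinearMap
import Mathlib.Analysis.InnerProductSpace.ExteriorPower
import Mathlib.Analysis.InnerProductSpace.JointEigenspace
import Mathlib.Analysis.InnerProductSpace.LaxMilgram
import Mathlib.Analysis.InnerProductSpace.LinearPMap
import Mathlib.Analysis.InnerProductSpace.MeanErgodic
import Mathlib.Analysis.InnerProductSpace.MulOpposite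
import Mathlib.Analysis.InnerProductSpace.NormDet
import Mathlib.Analysis.InnerProductSpace.NormPow
import Mathlib.Analysis.InnerProductSpace.OfNorm
import Mathlib.Analysis.InnerProductSpace.Reproducing
import Mathlib.Analysis.InnerProductSpace.StandardSubspace
import Mathlib.Analysis.InnerProductSpace.StarOrder
import Mathlib.Analysis.InnerProductSpace.Trace
import Mathlib.Analysis.InnerProductSpace.TwoDim
import Mathlib.Analysis.InnerProductSpace.WeakOperatorTopology
import Mathlib.Analysis.Normed.Field.Dense
import Mathlib.Analysis.Normed.Field.Instances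
import Mathlib.Analysis.Normed.Field.ProperSpace
import Mathlib.Analysis.Normed.Field.WithAbs
import Mathlib.Analysis.Normed.Group.CocompactMap
import Mathlib.Analysis.Normed.Group.Completeness
import Mathlib.Analysis.Normed.Group.ControlledClosure
import Mathlib.Analysis.Normed.Group.HomCompletion
import Mathlib.Analysis.Normed.Group.SemiNormedGrp
import Mathlib.Analysis.Normed.Group.SeparationQuotient
import Mathlib.Analysis.Normed.Lp.Finsupp
import Mathlib.Analysis.Normed.Lp.LpEquiv
import Mathlib.Analysis.Normed.Lp.lpHolder
import Mathlib.Analysis.Normed.Module.ContinuousInverse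
import Mathlib.Analysis.Normed.Module.DoubleDual
import Mathlib.Analysis.Normed.Module.MStructure
import Mathlib.Analysis.Normed.Module.Shrink
import Mathlib.Analysis.Normed.Operator.Compact
import Mathlib.Analysis.Normed.Operator.ContinuousAlgEquiv
import Mathlib.Analysis.Normed.Operator.FredholmAlternative
import Mathlib.Analysis.Normed.Order.Basic
import Mathlib.Analysis.Normed.Ring.InfiniteProd
import Mathlib.Analysis.Normed.Ring.Int
import Mathlib.Analysis.RCLike.ContinuousMap
import Mathlib.Analysis.RCLike.Inner
import Mathlib.Analysis.Real.Hyperreal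
import Mathlib.Analysis.Real.Pi.Bounds
import Mathlib.Analysis.Real.Pi.Chudnovsky
import Mathlib.Analysis.Real.Pi.Irrational
import Mathlib.Analysis.Real.Pi.Leibniz
import Mathlib.Analysis.SpecialFunctions.Arcosh
import Mathlib.Analysis.SpecialFunctions.ArithmeticGeometricMean
import Mathlib.Analysis.SpecialFunctions.Arsinh
import Mathlib.Analysis.SpecialFunctions.Artanh
import Mathlib.Analysis.SpecialFunctions.BinaryEntropy
import Mathlib.Analysis.SpecialFunctions.Choose
import Mathlib.Analysis.SpecialFunctions.CompareExp
import Mathlib.Analysis.SpecialFunctions.FrullaniIntegral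
import Mathlib.Analysis.SpecialFunctions.Gaussian.PoissonSummation
import Mathlib.Analysis.SpecialFunctions.Log.Base
import Mathlib.Analysis.SpecialFunctions.Log.Monotone
import Mathlib.Analysis.SpecialFunctions.Log.RpowTendsto
import Mathlib.Analysis.SpecialFunctions.Pochhammer
import Mathlib.Analysis.SpecialFunctions.Pow.Integral
import Mathlib.Analysis.SpecialFunctions.Pow.NthRootLemmas
import Mathlib.Analysis.SpecialFunctions.RegularizedHypergeometric
import Mathlib.Analysis.SpecialFunctions.Sigmoid
import Mathlib.Analysis.SpecialFunctions.Stirling
import Mathlib.Analysis.SpecialFunctions.Trigonometric.Cotangent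
import Mathlib.Analysis.SpecialFunctions.Trigonometric.InverseDeriv
import Mathlib.Analysis.SpecialFunctions.Trigonometric.Meromorphic
import Mathlib.Analysis.SpecialFunctions.Trigonometric.Series
import Mathlib.Analysis.SpecificLimits.ArithmeticGeometric
import Mathlib.Analysis.SpecificLimits.Fibonacci
import Mathlib.Analysis.SpecificLimits.FloorPow
import Mathlib.Data.Char
import Mathlib.Data.ENat.BigOperators
import Mathlib.Data.Erased
import Mathlib.Data.Fin.Init
import Mathlib.Data.Fin.Parity
import Mathlib.Data.Fin.Pigeonhole
import Mathlib.Data.Fin.SuccPredOrder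
import Mathlib.Data.Fin.Tuple.BubbleSortInduction
import Mathlib.Data.Fin.Tuple.Curry
import Mathlib.Data.Fin.Tuple.Finset
import Mathlib.Data.Fin.Tuple.Take
import Mathlib.Data.FinEnum
import Mathlib.Data.Finite.Card
import Mathlib.Data.Finmap
import Mathlib.Data.Finset.CastCard
import Mathlib.Data.Finset.DenselyOrdered
import Mathlib.Data.Finset.Finsupp
import Mathlib.Data.Finset.Functor
import Mathlib.Data.Finset.Interval
import Mathlib.Data.Finset.NatDivisors
import Mathlib.Data.Finset.PImage
import Mathlib.Data.Finset.PiInduction
import Mathlib.Data.Finset.Sups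
import Mathlib.Data.Fintype.Shrink
import Mathlib.Data.Fintype.Units
import Mathlib.Data.FunLike.Fintype
import Mathlib.Data.FunLike.Graded
import Mathlib.Data.Holor
import Mathlib.Data.Int.CardIntervalMod
import Mathlib.Data.Int.Lemmas
import Mathlib.Data.Int.NatPrime
import Mathlib.Data.Int.Star
import Mathlib.Data.Matrix.Action
import Mathlib.Data.Matrix.Auto
import Mathlib.Data.Matrix.Bilinear
import Mathlib.Data.Matrix.Cartan
import Mathlib.Data.Matrix.DMatrix
import Mathlib.Data.Matrix.DualNumber
import Mathlib.Data.Matrix.Invertible
import Mathlib.Data.Multiset.DershowitzManna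
import Mathlib.Data.Multiset.Interval
import Mathlib.Data.Multiset.Pairwise
import Mathlib.Data.NNRat.BigOperators
import Mathlib.Data.NNRat.Encodable
import Mathlib.Data.NNRat.Floor
import Mathlib.Data.NNRat.Lemmas
import Mathlib.Data.NNRat.Order
import Mathlib.Data.Nat.BitIndices
import Mathlib.Data.Nat.Cast.SetInterval
import Mathlib.Data.Nat.Cast.Synonym
import Mathlib.Data.Nat.ChineseRemainder
import Mathlib.Data.Nat.Dist
import Mathlib.Data.Nat.EvenOddRec
import Mathlib.Data.Nat.Factorial.NatCast
import Mathlib.Data.Nat.Hyperoperation
import Mathlib.Data.Nat.Lattice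
import Mathlib.Data.Nat.Nth
import Mathlib.Data.Nat.PSub
import Mathlib.Data.Nat.Upto
import Mathlib.Data.Rat.Cardinal
import Mathlib.Data.Rat.Cast.OfScientific
import Mathlib.Data.Rat.Denumerable
import Mathlib.Data.Rat.Star
import Mathlib.Data.Real.Archimedean
import Mathlib.Data.Real.CompleteField
import Mathlib.Data.Real.Embedding
import Mathlib.Data.Real.Hom
import Mathlib.Data.Real.Sign
import Mathlib.Data.Real.Sqrt
import Mathlib.Data.Real.StarOrdered
import Mathlib.Data.Semiquot
import Mathlib.Data.Set.Accumulate
import Mathlib.Data.Set.Card.Arithmetic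
import Mathlib.Data.Set.Dissipate
import Mathlib.Data.Set.Enumerate
import Mathlib.Data.Set.Equitable
import Mathlib.Data.Set.Finite.List
import Mathlib.Data.Set.Finite.Monad
import Mathlib.Data.Set.FiniteExhaustion
import Mathlib.Data.Set.Opposite
import Mathlib.Data.Set.Pairwise.Chain
import Mathlib.Data.SubtypeNeLift
import Mathlib.Data.TwoPointing
import Mathlib.Data.TypeVec
import Mathlib.Data.UInt
import Mathlib.Data.Vector3
import Mathlib.Data.ZMod.Coprime
import Mathlib.Data.ZMod.Factorial
import Mathlib.Dynamics.Ergodic.AddCircle
import Mathlib.Dynamics.Ergodic.AddCircleAdd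
import Mathlib.Dynamics.Ergodic.Conservative
import Mathlib.Dynamics.Ergodic.Extreme
import Mathlib.GroupTheory.GroupAction.CardCommute
import Mathlib.GroupTheory.GroupAction.Iwasawa
import Mathlib.GroupTheory.GroupAction.Jordan
import Mathlib.GroupTheory.GroupAction.OfQuotient
import Mathlib.GroupTheory.GroupAction.Period
import Mathlib.GroupTheory.GroupAction.Support
import Mathlib.LinearAlgebra.AffineSpace.Ceva
import Mathlib.LinearAlgebra.AffineSpace.Matrix
import Mathlib.LinearAlgebra.AffineSpace.MidpointZero
import Mathlib.LinearAlgebra.Basis.Flag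
import Mathlib.LinearAlgebra.Center
import Mathlib.LinearAlgebra.Coevaluation
import Mathlib.LinearAlgebra.ConvexSpace
import Mathlib.LinearAlgebra.Countable
import Mathlib.LinearAlgebra.CrossProduct
import Mathlib.LinearAlgebra.FreeAlgebra
import Mathlib.LinearAlgebra.FreeModule.Int
import Mathlib.LinearAlgebra.FreeModule.ModN
import Mathlib.LinearAlgebra.FreeModule.Norm
import Mathlib.LinearAlgebra.Goursat
import Mathlib.LinearAlgebra.JordanChevalley
import Mathlib.LinearAlgebra.Lagrange
import Mathlib.LinearAlgebra.Matrix.AbsoluteValue
import Mathlib.LinearAlgebra.Matrix.BaseChange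
import Mathlib.LinearAlgebra.Matrix.CharP
import Mathlib.LinearAlgebra.Matrix.Circulant
import Mathlib.LinearAlgebra.Matrix.Determinant.Misc
import Mathlib.LinearAlgebra.Matrix.Determinant.TotallyUnimodular
import Mathlib.LinearAlgebra.Matrix.FixedDetMatrices
import Mathlib.LinearAlgebra.Matrix.Gershgorin
import Mathlib.LinearAlgebra.Matrix.HadamardMatrix
import Mathlib.LinearAlgebra.Matrix.Integer
import Mathlib.LinearAlgebra.Matrix.IsDiag
import Mathlib.LinearAlgebra.Matrix.Module
import Mathlib.LinearAlgebra.Matrix.Nonsingular
import Mathlib.LinearAlgebra.Matrix.Permanent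
import Mathlib.LinearAlgebra.Matrix.Swap
import Mathlib.LinearAlgebra.Matrix.Unique
import Mathlib.LinearAlgebra.Matrix.WithConv
import Mathlib.LinearAlgebra.Matrix.ZMatrix
import Mathlib.LinearAlgebra.PID
import Mathlib.LinearAlgebra.PiTensorProduct
import Mathlib.LinearAlgebra.Reflection
import Mathlib.LinearAlgebra.Span.TensorProduct
import Mathlib.LinearAlgebra.SpecialLinearGroup
import Mathlib.LinearAlgebra.SymplecticGroup
import Mathlib.LinearAlgebra.Transvection
import Mathlib.Logic.Equiv.Array
import Mathlib.Logic.Equiv.Bool
import Mathlib.Logic.Equiv.Pairwise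
import Mathlib.Logic.Hydra
import Mathlib.Logic.IsEmpty
import Mathlib.MeasureTheory.Constructions.AddChar
import Mathlib.MeasureTheory.Constructions.BorelSpace.WithTop
import Mathlib.MeasureTheory.Constructions.ClosedCompactCylinders
import Mathlib.MeasureTheory.Constructions.ProjectiveFamilyContent
import Mathlib.MeasureTheory.Constructions.SimpleGraph
import Mathlib.MeasureTheory.Constructions.SubmoduleQuotient
import Mathlib.MeasureTheory.Constructions.UnitInterval
import Mathlib.MeasureTheory.Function.AEEqFun.DomAct
import Mathlib.MeasureTheory.Function.ConditionalLExpectation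
import Mathlib.MeasureTheory.Function.ConvergenceInDistribution
import Mathlib.MeasureTheory.Function.FactorsThrough
import Mathlib.MeasureTheory.Function.Floor
import Mathlib.MeasureTheory.Function.Intersectivity
import Mathlib.MeasureTheory.Function.LpSeminorm.Count
import Mathlib.MeasureTheory.Function.LpSpace.ContinuousCompMeasurePreserving
import Mathlib.MeasureTheory.Function.Piecewise
import Mathlib.MeasureTheory.Function.SpecialFunctions.Arctan
import Mathlib.MeasureTheory.Function.SpecialFunctions.Inner
import Mathlib.MeasureTheory.Function.SpecialFunctions.RCLike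
import Mathlib.MeasureTheory.Function.UnifTight
import Mathlib.MeasureTheory.Group.FoelnerFilter
import Mathlib.MeasureTheory.Group.GeometryOfNumbers
import Mathlib.MeasureTheory.Group.ModularCharacter
import Mathlib.MeasureTheory.Integral.CircleTransform
import Mathlib.MeasureTheory.Integral.Indicator
import Mathlib.MeasureTheory.Integral.IntervalIntegral.ContDiff
import Mathlib.MeasureTheory.Integral.IntervalIntegral.DistLEIntegral
import Mathlib.MeasureTheory.Integral.IntervalIntegral.MeanValue
import Mathlib.MeasureTheory.Integral.IntervalIntegral.TrapezoidalRule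
import Mathlib.MeasureTheory.Integral.LebesgueNormedSpace
import Mathlib.MeasureTheory.Integral.TorusIntegral
import Mathlib.MeasureTheory.MeasurableSpace.Card
import Mathlib.MeasureTheory.MeasurableSpace.Invariants
import Mathlib.MeasureTheory.MeasurableSpace.NCard
import Mathlib.MeasureTheory.Measure.CharacteristicFunction
import Mathlib.MeasureTheory.Measure.DiracProba
import Mathlib.MeasureTheory.Measure.FiniteMeasurePi
import Mathlib.MeasureTheory.Measure.FiniteMeasureProd
import Mathlib.MeasureTheory.Measure.Haar.DistribChar
import Mathlib.MeasureTheory.Measure.Haar.Extension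
import Mathlib.MeasureTheory.Measure.Haar.MulEquivHaarChar
import Mathlib.MeasureTheory.Measure.HasOuterApproxClosedProd
import Mathlib.MeasureTheory.Measure.Lebesgue.VolumeOfBalls
import Mathlib.MeasureTheory.Measure.LevyConvergence
import Mathlib.MeasureTheory.Measure.LogLikelihoodRatio
import Mathlib.MeasureTheory.Measure.MeasuredSets
import Mathlib.MeasureTheory.Measure.PreVariation
import Mathlib.MeasureTheory.Measure.ResolventTransform
import Mathlib.MeasureTheory.Measure.SeparableMeasure
import Mathlib.MeasureTheory.Measure.SubFinite
import Mathlib.MeasureTheory.Measure.Typeclasses.NoAtoms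
import Mathlib.MeasureTheory.Measure.Typeclasses.ZeroOne
import Mathlib.MeasureTheory.Measure.WithDensityFinite
import Mathlib.MeasureTheory.Order.Group.Lattice
import Mathlib.MeasureTheory.Order.UpperLower
import Mathlib.MeasureTheory.OuterMeasure.OfAddContent
import Mathlib.Order.Birkhoff
import Mathlib.Order.BooleanGenerators
import Mathlib.Order.Booleanisation
import Mathlib.Order.Bounded
import Mathlib.Order.Comparable
import Mathlib.Order.CompleteLattice.MulticoequalizerDiagram
import Mathlib.Order.CompleteLattice.PiLex
import Mathlib.Order.CompleteLattice.SetLike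
import Mathlib.Order.CountableDenseLinearOrder
import Mathlib.Order.CountableSupClosed
import Mathlib.Order.Filter.Cocardinal
import Mathlib.Order.Height
import Mathlib.Order.Heyting.Regular
import Mathlib.Order.Interval.Finset.Floor
import Mathlib.Order.Interval.Lex
import Mathlib.Order.Interval.Set.Final
import Mathlib.Order.Interval.Set.InitialSeg
import Mathlib.Order.Interval.Set.Limit
import Mathlib.Order.Interval.Set.Nat
import Mathlib.Order.Interval.Set.OrdConnectedLinear
import Mathlib.Order.Interval.Set.SuccOrder
import Mathlib.Order.Interval.Set.SurjOn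
import Mathlib.Order.KonigLemma
import Mathlib.Order.Lattice.Congruence
import Mathlib.Order.Monotone.MonovaryOrder
import Mathlib.Order.NonemptyFiniteChains
import Mathlib.Order.PrimeSeparator
import Mathlib.Order.Radical
import Mathlib.Order.SemiconjSup
import Mathlib.Order.Set
import Mathlib.Order.Shrink
import Mathlib.Order.Std
import Mathlib.Order.Sublocale
import Mathlib.Order.Synonym
import Mathlib.Order.TeichmullerTukey
import Mathlib.Order.TransfiniteIteration
import Mathlib.Order.WithBotTop
import Mathlib.RingTheory.ClassGroup
import Mathlib.RingTheory.Complex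
import Mathlib.RingTheory.DedekindDomain.FiniteAdeleRing
import Mathlib.RingTheory.DedekindDomain.GaussLemma
import Mathlib.RingTheory.DedekindDomain.Instances
import Mathlib.RingTheory.DedekindDomain.LinearDisjoint
import Mathlib.RingTheory.DedekindDomain.SInteger
import Mathlib.RingTheory.DedekindDomain.SelmerGroup
import Mathlib.RingTheory.DualNumber
import Mathlib.RingTheory.Finiteness.Descent
import Mathlib.RingTheory.Finiteness.ModuleFinitePresentation
import Mathlib.RingTheory.Finiteness.Nilpotent
import Mathlib.RingTheory.Fintype
import Mathlib.RingTheory.Flat.CategoryTheory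
import Mathlib.RingTheory.Flat.Domain
import Mathlib.RingTheory.Flat.Equalizer
import Mathlib.RingTheory.Flat.FaithfullyFlat.Descent
import Mathlib.RingTheory.Flat.LocallyFree
import Mathlib.RingTheory.Frobenius
import Mathlib.RingTheory.Grassmannian
import Mathlib.RingTheory.Henselian
import Mathlib.RingTheory.IsAdjoinRoot
import Mathlib.RingTheory.Lasker
import Mathlib.RingTheory.LaurentSeries
import Mathlib.RingTheory.LittleWedderburn
import Mathlib.RingTheory.LocalIso
import Mathlib.RingTheory.NoetherNormalization
import Mathlib.RingTheory.NormTrace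
import Mathlib.RingTheory.NormalClosure
import Mathlib.RingTheory.Nullstellensatz
import Mathlib.RingTheory.PiTensorProduct
import Mathlib.RingTheory.PicardGroup
import Mathlib.RingTheory.Prime
import Mathlib.RingTheory.Radical
import Mathlib.RingTheory.RingInvo
import Mathlib.RingTheory.SimpleRing.Congr
import Mathlib.RingTheory.SimpleRing.DivisionRing
import Mathlib.RingTheory.SimpleRing.Principal
import Mathlib.RingTheory.Teichmuller
import Mathlib.RingTheory.TotallySplit
import Mathlib.RingTheory.ZariskisMainTheorem
import Mathlib.Tactic
import Mathlib.Topology.Algebra.AsymptoticCone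
import Mathlib.Topology.Algebra.ClopenNhdofOne
import Mathlib.Topology.Algebra.Group.AddTorsor
import Mathlib.Topology.Algebra.Group.DiscontinuousSubgroup
import Mathlib.Topology.Algebra.Group.Matrix
import Mathlib.Topology.Algebra.Group.OpenMapping
import Mathlib.Topology.Algebra.Group.SubmonoidClosure
import Mathlib.Topology.Algebra.Group.TopologicalAbelianization
import Mathlib.Topology.Algebra.Group.Units
import Mathlib.Topology.Algebra.InfiniteSum.ConditionalInt
import Mathlib.Topology.Algebra.InfiniteSum.DiscreteConvolution
import Mathlib.Topology.Algebra.InfiniteSum.Nonarchimedean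
import Mathlib.Topology.Algebra.IntermediateField
import Mathlib.Topology.Algebra.IsOpenUnits
import Mathlib.Topology.Algebra.IsUniformGroup.DiscreteSubgroup
import Mathlib.Topology.Algebra.Localization
import Mathlib.Topology.Algebra.Module.EmbeddingOfLocal
import Mathlib.Topology.Algebra.Module.FiniteDimensionBilinear
import Mathlib.Topology.Algebra.Module.IsWeak
import Mathlib.Topology.Algebra.Module.LinearMap
import Mathlib.Topology.Algebra.Module.LinearMapPiProd
import Mathlib.Topology.Algebra.Module.StrongTopology
import Mathlib.Topology.Algebra.Module.TopDualPairing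
import Mathlib.Topology.Algebra.Module.TransferInstance
import Mathlib.Topology.Algebra.Module.WeakDual
import Mathlib.Topology.Algebra.Monoid.AddChar
import Mathlib.Topology.Algebra.MvPolynomial
import Mathlib.Topology.Algebra.Order.ArchimedeanDiscrete
import Mathlib.Topology.Algebra.Order.Module
import Mathlib.Topology.Algebra.PontryaginDual
import Mathlib.Topology.Algebra.ProperConstSMul
import Mathlib.Topology.Algebra.Ring.Compact
import Mathlib.Topology.Algebra.Semigroup
import Mathlib.Topology.CantorBendixson
import Mathlib.Topology.ClopenBox
import Mathlib.Topology.Compactness.CompactSystem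
import Mathlib.Topology.Compactness.CompactlyGeneratedSpace
import Mathlib.Topology.Compactness.CountablyCompact
import Mathlib.Topology.Compactness.DeltaGeneratedSpace
import Mathlib.Topology.ContinuousMap.BoundedCompactlySupported
import Mathlib.Topology.ContinuousMap.LocallyConstant
import Mathlib.Topology.ContinuousMap.LocallyConvex
import Mathlib.Topology.ContinuousMap.SecondCountableSpace
import Mathlib.Topology.ContinuousMap.Sigma
import Mathlib.Topology.ContinuousMap.T0Sierpinski
import Mathlib.Topology.DiscreteQuotient
import Mathlib.Topology.EMetricSpace.PairReduction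
import Mathlib.Topology.EMetricSpace.Weak
import Mathlib.Topology.ExtremallyDisconnected
import Mathlib.Topology.FiberPartition
import Mathlib.Topology.Germ
import Mathlib.Topology.Gluing
import Mathlib.Topology.Instances.Complex
import Mathlib.Topology.Instances.ENNReal.ENatENNReal
import Mathlib.Topology.Instances.PNat
import Mathlib.Topology.Instances.RatLemmas
import Mathlib.Topology.Instances.TrivSqZeroExt
import Mathlib.Topology.Instances.ZMod
import Mathlib.Topology.IsClosedRestrict
import Mathlib.Topology.List
import Mathlib.Topology.MetricSpace.BundledFun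
import Mathlib.Topology.MetricSpace.CoveringNumbers
import Mathlib.Topology.MetricSpace.GromovHausdorff
import Mathlib.Topology.MetricSpace.HausdorffAlexandroff
import Mathlib.Topology.MetricSpace.HolderNorm
import Mathlib.Topology.MetricSpace.Infsep
import Mathlib.Topology.MetricSpace.ShrinkingLemma
import Mathlib.Topology.MetricSpace.Similarity
import Mathlib.Topology.MetricSpace.Snowflaking
import Mathlib.Topology.Metrizable.ContinuousMap
import Mathlib.Topology.NatEmbedding
import Mathlib.Topology.OmegaCompletePartialOrder
import Mathlib.Topology.Order.Completion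
import Mathlib.Topology.Order.Filter
import Mathlib.Topology.Order.HullKernel
import Mathlib.Topology.Order.IsLocallyClosed
import Mathlib.Topology.Order.IsNormal
import Mathlib.Topology.Order.LawsonTopology
import Mathlib.Topology.Order.NhdsSet
import Mathlib.Topology.Order.PartialSups
import Mathlib.Topology.Order.Priestley
import Mathlib.Topology.Order.SuccPred
import Mathlib.Topology.Partial
import Mathlib.Topology.PreorderRestrict
import Mathlib.Topology.Separation.AlexandrovDiscrete
import Mathlib.Topology.Separation.Lemmas
import Mathlib.Topology.Separation.LinearUpperLowerSetTopology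
import Mathlib.Topology.Separation.NotNormal
import Mathlib.Topology.Separation.PerfectlyNormal
import Mathlib.Topology.Sion
import Mathlib.Topology.SmallInductiveDimension
import Mathlib.Topology.Specialization
import Mathlib.Topology.Subpath
import Mathlib.Topology.UniformSpace.CompareReals
import Mathlib.Topology.UniformSpace.Dini
import Mathlib.Topology.UniformSpace.Path
import Mathlib.Topology.UniformSpace.ProdApproximation
import Mathlib.Topology.UniformSpace.Uniformizable

/-! A larger part of Mathlib, for files that need more than MathlibUsed. -/
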